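import Vale.Agent.P032.S5.H358.NoSpec
import Vale.Agent.P032.S5.H585.Pinch

/-!
# P032: circles with four coloured points in solid runs

`Solid T z y`: a colour `x ∉ T z` is in all palettes of `S(z)` near `y`.  Then `x` is not a colour of
any other point `w` of `S(y)` except `2 y - z` (`solid_off`).  `FineC T z`: the ends of the exact arcs
of `z` have at most three colours and the four coloured points of `S(z)` are in solid runs or carry
both missing colours without a contact of the bad kinds.  Then the letters of `S(z)` form a `RawT`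
word.
-/

open Set Filter Topology Metric

noncomputable section

namespace Vale.Agent.P032.H510

open Vale.Agent.P032.Six Vale.Agent.P032.Words Vale.Agent.P032.S5.H767 Vale.Agent.P032.S5.H358
open Vale.Agent.P032.S5.H349

variable {U : Fin 6 → Set ℂ} {T : ℂ → Set (Fin 6)}

/-- colours of an arc of `S(z)` near `q` are not colours of the other points of `S(q)` -/
theorem arc_off (h : Mx U) {z q : ℂ} (hqz : dist q z = 1) {P : Set (Fin 6)}
    (hJ : ∀ᶠ q' in 𝓝[sphere z 1] q, P ⊆ Pal U q') {w : ℂ} (hwq : dist w q = 1) (hwz : w ≠ z)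
    (hw2 : w + z ≠ 2 * q) : ∀ i ∈ P, i ∉ Pal U w := by
  obtain ⟨t1, ht1⟩ := exists_cis (u := q - z) (by rw [← dist_eq_norm]; exact hqz)
  have hqt : z + cis t1 = q := by rw [← ht1]; ring
  have hcr2 : cr (cis t1) (z + cis t1 - w) ≠ 0 := by
    rw [hqt, ← ht1]
    exact cr_ne (z := q) (c := z) (q := w) hqz (by rw [dist_comm]; exact hwq) hwz.symm (by
      intro h2
      exact hw2 (by rw [add_comm]; exact h2))
  obtain ⟨v, hv, hvs⟩ := mem_nhdsWithin_iff_exists_mem_nhds_inter.1 hJ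
  have hc2 : ContinuousAt (fun t => z + cis t) t1 :=
    (continuous_const.add continuous_cis).continuousAt
  have hpre : (fun t => z + cis t) ⁻¹' v ∈ 𝓝 t1 := hc2.preimage_mem_nhds (by rw [hqt]; exact hv)
  obtain ⟨η2, hη2, hball2⟩ := Metric.mem_nhds_iff.1 hpre
  have hsweep := crossing (c := z) (q₀ := w) (t0 := t1)
    (by rw [hqt, dist_comm]; exact hwq) hcr2 hη2
  intro i hi hwi
  obtain ⟨w', hw', hw'U⟩ := mem_closure_iff_nhds.1 hwi _ hsweep
  obtain ⟨t', ht', ht'1⟩ := hw'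
  have hmem : z + cis t' ∈ v ∩ sphere z 1 :=
    ⟨hball2 (by rw [mem_ball, Real.dist_eq]; exact ht'), dist_add_cis z t'⟩
  have hi' : i ∈ Pal U (z + cis t') := hvs hmem hi
  exact h.notMem' hw'U (by rw [dist_comm]; exact ht'1) hi'

/-- a colour missing at `z` is in all palettes of `S(z)` near `y` -/
def Solid (T : ℂ → Set (Fin 6)) (z y : ℂ) (x : Fin 6) : Prop :=
  x ∉ T z ∧ ∀ᶠ q in 𝓝[sphere z 1] y, x ∈ T q

/-- **a solid run kills its colour across** -/
theorem solid_off (h : Irr U T) {z y w : ℂ} {x : Fin 6} (hyz : dist y z = 1)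
    (hs : Solid T z y x) (hwy : dist w y = 1) (hwz : w ≠ z) (hw2 : w + z ≠ 2 * y) : x ∉ T w := by
  intro hx
  refine arc_off h.mx hyz (P := {x}) (hs.2.mono fun q hq => ?_) hwy hwz hw2 x rfl (h.sub _ hx)
  rintro i rfl
  exact h.sub _ hq

/-- the circle of `z` is fine -/
structure FineC (T : ℂ → Set (Fin 6)) (z : ℂ) : Prop where
  ends : ∀ P : Set (Fin 6), P ⊆ T z → P.ncard = 2 → ∀ y, y ∈ closure (Ex T z P) → (T y).ncard ≤ 3
  sw : ∀ y y', dist y z = 1 → dist y' z = 1 → dist y y' = 1 → 4 ≤ (T y).ncard →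
    (∀ x, ¬ Solid T z y x) → (T z)ᶜ ⊆ T y → (T z)ᶜ ⊆ T y' → False
  th : ∀ y y' y'' P P' i j, dist y z = 1 → dist y y' = 1 → dist y y'' = 1 → y'' ≠ y' →
    y'' + y' ≠ 2 * y → 4 ≤ (T y).ncard → (∀ x, ¬ Solid T z y x) → (T z)ᶜ ⊆ T y → P ⊆ T z →
    P.ncard = 2 → P' ⊆ T z → P'.ncard = 2 → P ≠ P' → i ≠ j → i ∉ T z → j ∉ T z → i ∈ T y' →
    j ∈ T y'' → y' ∈ closure (Ex T z P) → y'' ∈ closure (Ex T z P') → False

variable {z : ℂ} {a b c d e f : Fin 6}

section word

variable (C : Ctr U T z a b c d e f) (F : FineC T z)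

include C

theorem miss_e : e ∉ T z ∧ f ∉ T z := by
  obtain ⟨⟨ab, ac, ad, ae, af⟩, ⟨bc, bd, be, bf⟩, ⟨cd, ce, cf⟩, ⟨de, df⟩, ef⟩ := C.sep
  rw [C.pal]
  simp only [mem_insert_iff, mem_singleton_iff, not_or]
  exact ⟨⟨ae.symm, be.symm, ce.symm, de.symm⟩, ⟨af.symm, bf.symm, cf.symm, df.symm⟩⟩

theorem compl_sub {y : ℂ} (he : e ∈ T y) (hf : f ∈ T y) : (T z)ᶜ ⊆ T y := by
  intro i hi
  rcases C.miss hi with rfl | rfl
  exacts [he, hf]

include F

/-- a point with a pair letter has at most three colours -/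
theorem le_pair {y : ℂ} {l : Fin 4} (hl : y ∈ Lt T z a b c d e f l) (h2 : 2 ≤ l.val) :
    (T y).ncard ≤ 3 := by
  obtain ⟨⟨ab, ac, ad, ae, af⟩, ⟨bc, bd, be, bf⟩, ⟨cd, ce, cf⟩, ⟨de, df⟩, ef⟩ := C.sep
  fin_cases l
  · exact absurd h2 (by decide)
  · exact absurd h2 (by decide)
  · refine F.ends _ ?_ (Set.ncard_pair ab) y hl
    rw [C.pal]; rintro i (rfl | rfl) <;> simp
  · refine F.ends _ ?_ (Set.ncard_pair cd) y hl
    rw [C.pal]; rintro i (rfl | rfl) <;> simp

/-- a four coloured point carries the letters `e` and `f` only -/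
theorem four_letter {y : ℂ} {l : Fin 4} (hl : y ∈ Lt T z a b c d e f l) (h4 : 4 ≤ (T y).ncard) :
    l = 0 ∨ l = 1 := by
  by_contra hcon
  have h2 : ∀ l : Fin 4, ¬ (l = 0 ∨ l = 1) → 2 ≤ l.val := by decide
  have := le_pair C F hl (h2 l hcon)
  omega

/-- no two common letters at a four coloured point and a neighbour -/
theorem noswap_four {y y' : ℂ} {l m : Fin 4} (hlm : l ≠ m) (hyy : dist y y' = 1)
    (h4 : 4 ≤ (T y).ncard) (hl : y ∈ Lt T z a b c d e f l) (hm : y ∈ Lt T z a b c d e f m)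
    (hl' : y' ∈ Lt T z a b c d e f l) (hm' : y' ∈ Lt T z a b c d e f m) : False := by
  have hy := Lt_dist hl
  have hy' := Lt_dist hl'
  have key : ∀ w, w ∈ Lt T z a b c d e f l → w ∈ Lt T z a b c d e f m → e ∈ T w ∧ f ∈ T w := by
    intro w h1 h2
    rcases four_letter C F hl h4 with rfl | rfl <;> rcases four_letter C F hm h4 with rfl | rfl
    · exact absurd rfl hlm
    · exact ⟨h1.2, h2.2⟩
    · exact ⟨h2.2, h1.2⟩
    · exact absurd rfl hlm
  obtain ⟨k1, k2⟩ := key y hl hm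
  obtain ⟨k3, k4⟩ := key y' hl' hm'
  obtain ⟨n1, n2⟩ := tri hy hy'
  by_cases hs : ∃ x, Solid T z y x
  · obtain ⟨x, hx⟩ := hs
    have h5 : x ∉ T y' := solid_off C.irr hy hx (by rw [dist_comm]; exact hyy) (Ne.symm n1)
      (by rw [add_comm]; exact n2)
    rcases C.miss hx.1 with rfl | rfl
    exacts [h5 k3, h5 k4]
  · push Not at hs
    exact F.sw y y' hy hy' hyy h4 hs (compl_sub C k1 k2) (compl_sub C k3 k4)

/-- a double contact at a four coloured point: the neighbours are not ends of both pairs -/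
theorem dbl_four {y y' y'' : ℂ} {l m : Fin 4} (hlm : l ≠ m) (hyy : dist y y' = 1)
    (hyy' : dist y y'' = 1) (hne : y'' ≠ y') (hne2 : y'' + y' ≠ 2 * y) (h4 : 4 ≤ (T y).ncard)
    (hl : y ∈ Lt T z a b c d e f l) (hl' : y' ∈ Lt T z a b c d e f l)
    (hm : y ∈ Lt T z a b c d e f m) (hm' : y'' ∈ Lt T z a b c d e f m) :
    (l.val < 2 ∧ m.val < 2) ∧
      ¬ (y' ∈ Lt T z a b c d e f 2 ∧ y'' ∈ Lt T z a b c d e f 3) ∧
      ¬ (y' ∈ Lt T z a b c d e f 3 ∧ y'' ∈ Lt T z a b c d e f 2) := by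
  obtain ⟨⟨ab, ac, ad, ae, af⟩, ⟨bc, bd, be, bf⟩, ⟨cd, ce, cf⟩, ⟨de, df⟩, ef⟩ := C.sep
  have hy := Lt_dist hl
  have hy' := Lt_dist hl'
  have hy'' := Lt_dist hm'
  obtain ⟨ne, nf⟩ := miss_e C
  have val2 : ∀ n : Fin 4, n = 0 ∨ n = 1 → n.val < 2 := by decide
  have hl01 := four_letter C F hl h4
  have hm01 := four_letter C F hm h4
  -- the colours of the letters
  obtain ⟨i, j, hij, hi, hj, hiy, hjy, hiy', hjy'', hef⟩ : ∃ i j : Fin 6, i ≠ j ∧ i ∉ T z ∧ j ∉ T z ∧
      i ∈ T y ∧ j ∈ T y ∧ i ∈ T y' ∧ j ∈ T y'' ∧ (T z)ᶜ ⊆ T y := by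
    rcases hl01 with rfl | rfl <;> rcases hm01 with rfl | rfl
    · exact absurd rfl hlm
    · exact ⟨e, f, ef, ne, nf, hl.2, hm.2, hl'.2, hm'.2, compl_sub C hl.2 hm.2⟩
    · exact ⟨f, e, ef.symm, nf, ne, hl.2, hm.2, hl'.2, hm'.2, compl_sub C hm.2 hl.2⟩
    · exact absurd rfl hlm
  have hsub1 : ({a, b} : Set (Fin 6)) ⊆ T z := by
    rw [C.pal]; rintro i (rfl | rfl) <;> simp
  have hsub2 : ({c, d} : Set (Fin 6)) ⊆ T z := by
    rw [C.pal]; rintro i (rfl | rfl) <;> simp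
  have hdif : ({a, b} : Set (Fin 6)) ≠ {c, d} := by
    intro h1
    have h2 : a ∈ ({c, d} : Set (Fin 6)) := by rw [← h1]; simp
    rcases h2 with h2 | h2
    exacts [ac h2, ad h2]
  have key : ∀ P P' : Set (Fin 6), P ⊆ T z → P.ncard = 2 → P' ⊆ T z → P'.ncard = 2 → P ≠ P' →
      y' ∈ closure (Ex T z P) → y'' ∈ closure (Ex T z P') → False := by
    intro P P' hP hP2 hP' hP2' hPP k1 k2
    by_cases hs : ∃ x, Solid T z y x
    · obtain ⟨x, hx⟩ := hs
      obtain ⟨n1, n2⟩ := tri hy hy'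
      obtain ⟨n3, n4⟩ := tri hy hy''
      have h5 : x ∉ T y' := solid_off C.irr hy hx (by rw [dist_comm]; exact hyy) (Ne.symm n1)
        (by rw [add_comm]; exact n2)
      have h6 : x ∉ T y'' := solid_off C.irr hy hx (by rw [dist_comm]; exact hyy') (Ne.symm n3)
        (by rw [add_comm]; exact n4)
      have h7 : x = i ∨ x = j := by
        rcases C.miss hx.1 with h8 | h8 <;> rcases C.miss hi with h9 | h9 <;>
          rcases C.miss hj with h10 | h10
        · exact absurd (h9.trans h10.symm) hij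
        · exact Or.inl (h8.trans h9.symm)
        · exact Or.inr (h8.trans h10.symm)
        · exact absurd (h9.trans h10.symm) hij
        · exact absurd (h9.trans h10.symm) hij
        · exact Or.inr (h8.trans h10.symm)
        · exact Or.inl (h8.trans h9.symm)
        · exact absurd (h9.trans h10.symm) hij
      rcases h7 with rfl | rfl
      exacts [h5 hiy', h6 hjy'']
    · push Not at hs
      exact F.th y y' y'' P P' i j hy hyy hyy' hne hne2 h4 hs hef hP hP2 hP' hP2' hPP hij hi hj hiy'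
        hjy'' k1 k2
  refine ⟨⟨val2 l hl01, val2 m hm01⟩, ?_, ?_⟩
  · rintro ⟨k1, k2⟩
    exact key _ _ hsub1 (Set.ncard_pair ab) hsub2 (Set.ncard_pair cd) hdif k1 k2
  · rintro ⟨k1, k2⟩
    exact key _ _ hsub2 (Set.ncard_pair cd) hsub1 (Set.ncard_pair ab) hdif.symm k1 k2

/-- **(dbl)** on fine circles -/
theorem dbl_fine {y y' y'' : ℂ} {l m : Fin 4} (hlm : l ≠ m)
    (hyy : dist y y' = 1) (hyy' : dist y y'' = 1) (hne : y'' ≠ y') (hne2 : y'' + y' ≠ 2 * y)
    (hl : y ∈ Lt T z a b c d e f l) (hl' : y' ∈ Lt T z a b c d e f l)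
    (hm : y ∈ Lt T z a b c d e f m) (hm' : y'' ∈ Lt T z a b c d e f m) :
    (l.val < 2 ∧ m.val < 2) ∧
      ¬ (y' ∈ Lt T z a b c d e f 2 ∧ y'' ∈ Lt T z a b c d e f 3) ∧
      ¬ (y' ∈ Lt T z a b c d e f 3 ∧ y'' ∈ Lt T z a b c d e f 2) := by
  obtain ⟨⟨ab, ac, ad, ae, af⟩, ⟨bc, bd, be, bf⟩, ⟨cd, ce, cf⟩, ⟨de, df⟩, ef⟩ := C.sep
  have hne' : y' ≠ y'' := hne.symm
  have hne2' : y' + y'' ≠ 2 * y := by rw [add_comm]; exact hne2
  have hy := Lt_dist hl
  have hy' := Lt_dist hl'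
  have hy'' := Lt_dist hm'
  by_cases h4 : 4 ≤ (T y).ncard
  · exact dbl_four C F hlm hyy hyy' hne hne2 h4 hl hl' hm hm'
  have h3 : (T y).ncard ≤ 3 := by omega
  have kl := Lt_col C.irr hl
  have kl' := Lt_col C.irr hl'
  have km := Lt_col C.irr hm
  have km' := Lt_col C.irr hm'
  have e23 : ∀ n : Fin 4, ¬ n.val < 2 → n = 2 ∨ n = 3 := by decide
  have hl2 : l.val < 2 := by
    by_contra hcon
    have h3' := le_pair C F hl' (not_lt.1 hcon)
    rcases e23 l hcon with rfl | rfl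
    · exact C.dblPair hlm hyy hyy' hne hne2 h3 h3' ab hy hy' (kl (Or.inl rfl)) (kl (Or.inr rfl))
        (kl' (Or.inl rfl)) (kl' (Or.inr rfl)) (fun h => C.ne_col hlm (Or.inl rfl) h rfl)
        (fun h => C.ne_col hlm (Or.inr rfl) h rfl) hm hm'
    · exact C.dblPair hlm hyy hyy' hne hne2 h3 h3' cd hy hy' (kl (Or.inl rfl)) (kl (Or.inr rfl))
        (kl' (Or.inl rfl)) (kl' (Or.inr rfl)) (fun h => C.ne_col hlm (Or.inl rfl) h rfl)
        (fun h => C.ne_col hlm (Or.inr rfl) h rfl) hm hm'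
  have hm2 : m.val < 2 := by
    by_contra hcon
    have h3'' := le_pair C F hm' (not_lt.1 hcon)
    rcases e23 m hcon with rfl | rfl
    · exact C.dblPair hlm.symm hyy' hyy hne' hne2' h3 h3'' ab hy hy'' (km (Or.inl rfl))
        (km (Or.inr rfl)) (km' (Or.inl rfl)) (km' (Or.inr rfl))
        (fun h => C.ne_col hlm.symm (Or.inl rfl) h rfl)
        (fun h => C.ne_col hlm.symm (Or.inr rfl) h rfl) hl hl'
    · exact C.dblPair hlm.symm hyy' hyy hne' hne2' h3 h3'' cd hy hy'' (km (Or.inl rfl))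
        (km (Or.inr rfl)) (km' (Or.inl rfl)) (km' (Or.inr rfl))
        (fun h => C.ne_col hlm.symm (Or.inl rfl) h rfl)
        (fun h => C.ne_col hlm.symm (Or.inr rfl) h rfl) hl hl'
  refine ⟨⟨hl2, hm2⟩, ?_, ?_⟩
  · rintro ⟨k1, k2⟩
    have h3' := le_pair C F k1 (by decide)
    have h3'' := le_pair C F k2 (by decide)
    obtain ⟨-, x, hxz, -, hx', hx''⟩ := C.dbl hlm hyy hyy' hne hne2 h3 h3' h3'' hl hl' hm hm'
    rw [C.pal] at hxz
    rcases hxz with rfl | rfl | h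
    · exact hx' (sub_of_closure C.irr (P := {x, b}) k1 (Or.inl rfl))
    · exact hx' (sub_of_closure C.irr (P := {a, x}) k1 (Or.inr rfl))
    · exact hx'' (sub_of_closure C.irr (P := {c, d}) k2 h)
  · rintro ⟨k1, k2⟩
    have h3' := le_pair C F k1 (by decide)
    have h3'' := le_pair C F k2 (by decide)
    obtain ⟨-, x, hxz, -, hx', hx''⟩ := C.dbl hlm hyy hyy' hne hne2 h3 h3' h3'' hl hl' hm hm'
    rw [C.pal] at hxz
    rcases hxz with rfl | rfl | h
    · exact hx'' (sub_of_closure C.irr (P := {x, b}) k2 (Or.inl rfl))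
    · exact hx'' (sub_of_closure C.irr (P := {a, x}) k2 (Or.inr rfl))
    · exact hx' (sub_of_closure C.irr (P := {c, d}) k1 h)

/-- **The word of a centre with a fine circle.** -/
theorem rawT_fine : RawT (Xs T z a b c d e f) := by
  refine ⟨C.x_closed, C.x_cover, C.x_per, ?_, ?_, ?_, fun u l h h' => C.x_own h h',
    fun u l h h' => C.x_own' h h', ?_, ?_, ?_⟩
  · exact fun u h => C.x_anti (le_pair C F (l := 2) h (by decide)) h
  · exact fun u h => C.x_ac (le_pair C F (l := 2) h (by decide)) h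
  · intro u l m n hl hm hn
    by_cases h4 : 4 ≤ (T (pt z u)).ncard
    · rcases four_letter C F hl h4 with rfl | rfl <;> rcases four_letter C F hm h4 with rfl | rfl <;>
        rcases four_letter C F hn h4 with rfl | rfl <;> simp
    · exact C.x_two (by omega) hl hm hn
  · intro u l m h1 h2 h4 h5
    by_contra hlm
    by_cases k4 : 4 ≤ (T (pt z u)).ncard
    · exact noswap_four C F hlm (dist_pt_one z u) k4 h1 h4 h2 h5
    by_cases k5 : 4 ≤ (T (pt z (u + 1))).ncard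
    · exact noswap_four C F hlm (by rw [dist_comm]; exact dist_pt_one z u) k5 h2 h5 h1 h4
    exact C.noswap hlm (dist_pt_one z u) (by omega) (by omega) h1 h4 h2 h5
  · intro u l m hlm h1 h2 h4 h5
    obtain ⟨k1, k2⟩ := pt_off z u
    have e1 : u + 1 + 1 = u + 2 := by ring
    have k3 := dist_pt_one z (u + 1)
    rw [e1] at k3
    exact (dbl_fine C F hlm (by rw [dist_comm]; exact dist_pt_one z u) k3 k1 k2 h2 h1 h4 h5).1
  · intro u l m hlm h1 h2 h4 h5
    obtain ⟨k1, k2⟩ := pt_off z u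
    have e1 : u + 1 + 1 = u + 2 := by ring
    have k3 := dist_pt_one z (u + 1)
    rw [e1] at k3
    exact (dbl_fine C F hlm (by rw [dist_comm]; exact dist_pt_one z u) k3 k1 k2 h2 h1 h4 h5).2

end word

/-- **fine circles are tie words without special ends** -/
theorem okC_fine (F : FineC T z) : OkC U T z where
  word _ _ _ _ _ _ C := rawT_fine C F
  ends := F.ends

end Vale.Agent.P032.H510
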