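import Vale.Agent.P032.H510.Fine
import Vale.Agent.P032.S5.H11.TopD

/-!
# P032: no two-pair centre when all their circles are fine

The network of `S5/H358/NoSpec.lean` with the circles `OkC` and the rule `Com`: a common point of the
circles of two two-pair centres which have together all six colours has at most three colours.
-/

open Set Filter Topology Metric

noncomputable section

namespace Vale.Agent.P032.H510

open Vale.Agent.P032.Six Vale.Agent.P032.Words Vale.Agent.P032.S5.H767 Vale.Agent.P032.S5.H349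
open Vale.Agent.P032.S5.H358 Vale.Agent.P032.Net.H672

variable {U : Fin 6 → Set ℂ} {T : ℂ → Set (Fin 6)} {z v q : ℂ} {a b c d e f : Fin 6}

/-- common points of two circles with all six colours -/
def Com (T : ℂ → Set (Fin 6)) : Prop :=
  ∀ w w' m, (∃ a b c d, DPt T w a b c d) → (∃ a b c d, DPt T w' a b c d) → w ≠ w' →
    (∀ i, i ∈ T w ∨ i ∈ T w') → dist m w = 1 → dist m w' = 1 → w + w' ≠ 2 * m → (T m).ncard ≤ 3

theorem ok_of_ee (h : Irr U T) (hK : ∀ z a b c d, DPt T z a b c d → OkC U T z)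
    (hv : EE T z v) : OkC U T z := by
  obtain ⟨a, b, c, d, h1, h2⟩ := hv.names
  exact hK z a b c d (hv.dpt h h1 h2)

/-- the network -/
theorem net_fine (h : Irr U T) (h4 : ∀ z, (T z).ncard ≤ 4)
    (hK : ∀ z a b c d, DPt T z a b c d → OkC U T z) (X : Set (Fin 6)) :
    Vale.Agent.P032.Net.H672.Net (fun z v => EE T z v ∧ T v = X)
      (fun z q => EE T z q ∧ T q = Xᶜ) := by
  have hX3 : ∀ {z v}, EE T z v ∧ T v = X → X.ncard = 3 := by
    rintro z v ⟨h1, rfl⟩; exact h1.card_v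
  have hX3' : ∀ {z v}, EE T z v ∧ T v = Xᶜ → X.ncard = 3 := by
    rintro z v ⟨h1, h2⟩
    have h3 := h1.card_v
    rw [h2] at h3
    have := Set.ncard_add_ncard_compl X
    rw [Nat.card_eq_fintype_card, Fintype.card_fin] at this
    omega
  have hc : ∀ {z v z' q}, EE T z v ∧ T v = X → EE T z' q ∧ T q = Xᶜ → T q = (T v)ᶜ := by
    rintro z v z' q ⟨-, h1⟩ ⟨-, h2⟩
    rw [h1, h2]
  have hc' : ∀ {z v z' q}, EE T z v ∧ T v = X → EE T z' q ∧ T q = Xᶜ → T v = (T q)ᶜ := by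
    rintro z v z' q ⟨-, h1⟩ ⟨-, h2⟩
    rw [h1, h2, compl_compl]
  have back : ∀ {z v q v'}, EE T z v ∧ T v = X → EE T z q ∧ T q = Xᶜ → En T X z v' →
      EE T z v' ∧ T v' = X := fun hv hq hv' =>
    ⟨hv'.ee (hX3 hv) (hv.1.arc_compl hv.2), hv'.1⟩
  have back' : ∀ {z v q v'}, EE T z v ∧ T v = X → EE T z q ∧ T q = Xᶜ → En T Xᶜ z v' →
      EE T z v' ∧ T v' = Xᶜ := fun hv hq hv' =>
    ⟨hv'.ee (ncard_compl_three (hX3 hv)) (hq.1.arc_compl hq.2), hv'.1⟩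
  have h3 : ∀ {z v}, EE T z v → OkC U T z := fun hv => ok_of_ee h hK hv
  have hcl : ∀ {z v q}, EE T z v ∧ T v = X → EE T z q ∧ T q = Xᶜ → ∀ m, dist m z = 1 →
      T m = X ∨ T m = Xᶜ → Vale.Agent.P032.S5.H349.Cln T z m := by
    rintro z v q hv hq m hm (h5 | h5)
    · exact hv.1.cln h h4 hq.1 (hc hv hq) hm (h5.trans hv.2.symm)
    · exact hq.1.cln h h4 hv.1 (hc' hv hq) hm (h5.trans hq.2.symm)
  refine
    { dist_t := fun hv => hv.1.dist
      dist_c := fun hq => hq.1.dist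
      ne := fun {z z' v} hv hq => ?_
      rh := fun {z v q} hv hq => ⟨⟨hv.1.rh h h4 hq.1 (hc hv hq), hv.2⟩,
        ⟨hv.1.rh' h h4 hq.1 (hc hv hq), hq.2⟩⟩
      three_t := ?_
      three_c := ?_
      sep := ?_
      L2 := ?_
      L3 := ?_
      L3' := ?_ }
  · have h5 := (hv.1.en hv.2).ne (hX3 hv) (hq.1.en hq.2)
    exact h5 rfl
  · rintro v z₁ z₂ z₃ z₄ ⟨a1, q1, b1⟩ ⟨a2, q2, b2⟩ ⟨a3, q3, b3⟩ ⟨a4, q4, b4⟩
    exact h.en_three (hX3 a1) ⟨a1.1.en a1.2, q1, b1.1.en b1.2⟩ ⟨a2.1.en a2.2, q2, b2.1.en b2.2⟩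
      ⟨a3.1.en a3.2, q3, b3.1.en b3.2⟩ ⟨a4.1.en a4.2, q4, b4.1.en b4.2⟩
  · rintro q z₁ z₂ z₃ z₄ ⟨a1, q1, b1⟩ ⟨a2, q2, b2⟩ ⟨a3, q3, b3⟩ ⟨a4, q4, b4⟩
    have e : ∀ {z v}, EE T z v ∧ T v = X → En T Xᶜᶜ z v := fun hv =>
      hv.1.en (by rw [compl_compl]; exact hv.2)
    exact h.en_three (X := Xᶜ) (ncard_compl_three (hX3' a1))
      ⟨a1.1.en a1.2, q1, e b1⟩ ⟨a2.1.en a2.2, q2, e b2⟩
      ⟨a3.1.en a3.2, q3, e b3⟩ ⟨a4.1.en a4.2, q4, e b4⟩
  · rintro z v₁ v₂ q₁ q₂ hv₁ hv₂ hq₁ hq₂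
    have e : ∀ {v q}, EE T z v ∧ T v = X → EE T z q ∧ T q = Xᶜ → T v ∩ T z = T z \ T q := by
      rintro v q ⟨-, h1⟩ ⟨-, h2⟩
      rw [h1, h2, Set.sdiff_compl, inter_comm]
    have l1 := hq₁.1.lp2 h hv₁.1 hv₂.1 (e hv₁ hq₁) (e hv₂ hq₁)
    have l2 := hq₂.1.lp2 h hv₁.1 hv₂.1 (e hv₁ hq₂) (e hv₂ hq₂)
    have nz : ∀ {v q}, EE T z v ∧ T v = X → EE T z q ∧ T q = Xᶜ →
        cr (q - z) (v - z) ≠ 0 := by
      intro v q hv hq
      refine cr_ne_of hq.1.dist hv.1.dist ((hv.1.en hv.2).ne (hX3 hv) (hq.1.en hq.2)).symm ?_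
      rw [add_comm]
      exact hv.1.anti h hq.1 (hc hv hq)
    have n11 := nz hv₁ hq₁
    have n21 := nz hv₂ hq₁
    have n12 := nz hv₁ hq₂
    have n22 := nz hv₂ hq₂
    have hP : (0 < cr (q₁ - z) (v₁ - z) * cr (q₁ - z) (v₂ - z)) ↔
        0 < cr (q₂ - z) (v₁ - z) * cr (q₂ - z) (v₂ - z) := l1.symm.trans l2
    have hpos : 0 < (cr (q₁ - z) (v₁ - z) * cr (q₁ - z) (v₂ - z)) *
        (cr (q₂ - z) (v₁ - z) * cr (q₂ - z) (v₂ - z)) := by
      rcases lt_or_gt_of_ne (mul_ne_zero n11 n21) with h5 | h5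
      · rcases lt_or_gt_of_ne (mul_ne_zero n12 n22) with h6 | h6
        · exact mul_pos_of_neg_of_neg h5 h6
        · exact absurd (hP.2 h6) (not_lt.2 h5.le)
      · exact mul_pos h5 (hP.1 h5)
    refine hpos.trans_le (le_of_eq ?_)
    unfold cr Vale.Agent.P032.Net.H672.dt
    ring
  · intro z v q hv hq
    rcases L2_ok h (hX3 hv) (h3 hv.1) (hv.1.pairs h hv.2) (hcl hv hq) (hv.1.en hv.2)
      (hq.1.en hq.2) with ⟨v', h5, h6⟩ | ⟨q', h5, h6⟩
    · exact Or.inl ⟨v', h5, back hv hq h6⟩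
    · exact Or.inr ⟨q', h5, back' hv hq h6⟩
  · intro z v q q' hv hq hq' hne hu1 hu2
    exact L3_ok h (hX3 hv) (h3 hv.1) (hv.1.pairs h hv.2) (hcl hv hq) (hv.1.en hv.2)
      (hq.1.en hq.2) (hq'.1.en hq'.2) hne (fun v' h5 => hu1 v' (back hv hq h5))
      (fun p h5 => hu2 p (back' hv hq h5))
  · intro z q v v' hq hv hv' hne hu1 hu2
    have e : ∀ {z v}, EE T z v ∧ T v = X → T v = Xᶜᶜ := fun hv => by
      rw [compl_compl]; exact hv.2
    refine L3_ok (X := Xᶜ) h (ncard_compl_three (hX3 hv)) (h3 hv.1) (hq.1.pairs h hq.2) ?_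
      (hq.1.en hq.2) (hv.1.en (e hv)) (hv'.1.en (e hv')) hne
      (fun v' h5 => hu1 v' (back' hv hq h5))
      (fun p h5 => hu2 p (back hv hq (by rw [compl_compl] at h5; exact h5)))
    intro m hm h5
    refine hcl hv hq m hm ?_
    rw [compl_compl] at h5
    exact h5.symm

/-- the arc fields -/
theorem arcFields_fine (h : Irr U T) (h4 : ∀ z, (T z).ncard ≤ 4)
    (hK : ∀ z a b c d, DPt T z a b c d → OkC U T z) : ArcFields U T (AA T) where
  arc_ex := by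
    rintro z v ⟨hv, q, hq, hc⟩
    exact arc_ex_ok h (ok_of_ee h hK hv) hv hq hc
  arc_end := EE.fld_end
  arc_pair := EE.fld_pair
  arc_len := EE.fld_len h h4
  arc_uniq := EE.fld_uniq h h4
  arc_symm := EE.fld_symm
  arc_ori := EE.fld_ori h h4
  arc_inn := EE.fld_inn h

/-- **the field `common`** -/
theorem common_fine (h : Irr U T) (hcm : Com T) {w v q w' v' q' m : ℂ} (e1 : EE T w v)
    (e3 : T q = (T v)ᶜ) (e1' : EE T w' v') (e3' : T q' = (T v')ᶜ) (hne : w ≠ w')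
    (hcov : ∀ i, i ∈ T w ∨ i ∈ T w')
    (hmw : dist m w = 1) (hmw' : dist m w' = 1) (hne2 : w + w' ≠ 2 * m)
    (hs : (T v ∩ T w ∩ T w').ncard = 1) (hs' : (T v' ∩ T w' ∩ T w).ncard = 1) :
    (T m).ncard = 3 ∧
      (T m ∩ T w = T v ∩ T w ∨ T m ∩ T w = T q ∩ T w) ∧
      (T m ∩ T w' = T v' ∩ T w' ∨ T m ∩ T w' = T q' ∩ T w') := by
  refine e1.common h e3 e1' e3' hne hcov hmw hmw' hne2 hs hs' ?_
  obtain ⟨a, b, c, d, h1, h2⟩ := e1.names
  obtain ⟨a', b', c', d', h1', h2'⟩ := e1'.names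
  exact hcm w w' m ⟨a, b, c, d, e1.dpt h h1 h2⟩ ⟨a', b', c', d', e1'.dpt h h1' h2'⟩ hne hcov hmw hmw'
    hne2

/-- the network with palettes -/
theorem dnet_fine (h : Irr U T) (h4 : ∀ z, (T z).ncard ≤ 4)
    (hK : ∀ z a b c d, DPt T z a b c d → OkC U T z) (hcm : Com T) :
    DNet T (EE T) (AA T) (ore T) (inn U T) where
  net := net_fine h h4 hK
  card_z := fun hv => hv.card_z
  card_v := fun hv => hv.card_v
  card_i := fun hv => hv.card_i'
  cov := fun hv hq hc => hv.cov h h4 hq hc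
  ori := fun {z v} _ => ore_or T z v
  inn_mem := fun hv => hv.inn_mem h
  LP1 := fun hv hq hc => hv.lp1 h h4 hq hc
  LP2 := fun hq hv hv' h1 h2 => hq.1.lp2 h hv.1 hv'.1 h1 h2
  LP3 := fun hv hq hc hv' hp hc' hcz hcw => hv.lp3 h h4 hq hc hv' hp hc' hcz hcw
  arc_ex := (arcFields_fine h h4 hK).arc_ex
  arc_end := EE.fld_end
  arc_pair := EE.fld_pair
  arc_len := EE.fld_len h h4
  arc_uniq := EE.fld_uniq h h4
  arc_symm := EE.fld_symm
  arc_ori := EE.fld_ori h h4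
  arc_inn := EE.fld_inn h
  auto := fun hv hq hc hm hTm => hv.auto h h4 hq hc hm hTm
  common := fun e1 _ e3 e1' _ e3' hne hcv d d' n s s' =>
    common_fine h hcm e1 e3 e1' e3' hne hcv d d' n s s'
  lemX := fun hu' hpu hpr ht hT => hu'.lemX h hpu hpr ht hT

/-- **No two-pair centre**, fine circles -/
theorem no_D_of_fine (h : Irr U T) (h4 : ∀ z, (T z).ncard ≤ 4)
    (hK : ∀ z a b c d, DPt T z a b c d → OkC U T z) (hcm : Com T) :
    ∀ z a b c d, DPt T z a b c d → False := by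
  intro z a b c d hz
  obtain ⟨v, q, hv, hq, hc⟩ := start_ok h h4 hz (hK z a b c d hz)
  exact (dnet_fine h h4 hK hcm).false hv hq hc

end Vale.Agent.P032.H510
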