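import Vale.Agent.P032.H183.HubW

/-!
# P032: the flip lemma on a circle about a three-coloured point (wild frame `Irr U T`)

`P` has at most three colours, `c, d ∉ T P`.  On an open arc of `S(P)` of length more than `120` degrees
without the third foreign colour `e` there is a point `V` with `c, d ∈ T V` and at least four colours.
-/

open Set Filter Topology Metric

noncomputable section

namespace Vale.Agent.P032.H510

open Vale.Agent.P032.Six Vale.Agent.P032.Words Vale.Agent.P032.S5.H767 Vale.Agent.P032.H892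
open Vale.Agent.P032.H183

variable {U : Fin 6 → Set ℂ} {T : ℂ → Set (Fin 6)}

/-- every point of the circle has one of the foreign colours -/
theorem foreign (h : Irr U T) {P : ℂ} {c d e : Fin 6} (h3 : (T P).ncard ≤ 3)
    (hall : ∀ j, j ∈ T P ∨ j = c ∨ j = d ∨ j = e) {t : ℝ} (he : e ∉ T (pt P t)) :
    c ∈ T (pt P t) ∨ d ∈ T (pt P t) := by
  obtain ⟨j, hj, hjP⟩ := h.not_sub' (dist_pt P t) h3
  rcases hall j with h1 | rfl | rfl | rfl
  · exact absurd h1 hjP
  · exact Or.inl hj
  · exact Or.inr hj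
  · exact absurd hj he

/-- only one foreign colour `c` at `pt P t`: it is absent at the two neighbours -/
theorem single_off (h : Irr U T) {P : ℂ} {c d e : Fin 6} (h3 : (T P).ncard ≤ 3)
    (hall : ∀ j, j ∈ T P ∨ j = c ∨ j = d ∨ j = e) {t : ℝ} (he : e ∉ T (pt P t)) (hd : d ∉ T (pt P t)) :
    c ∉ T (pt P (t + 1)) ∧ c ∉ T (pt P (t - 1)) := by
  have hsub : T (pt P t) ⊆ insert c (T P) := by
    intro j hj
    rcases hall j with h1 | rfl | rfl | rfl
    · exact Or.inr h1
    · exact Or.inl rfl
    · exact absurd hj hd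
    · exact absurd hj he
  have key : ∀ v, dist v P = 1 → dist (pt P t) v = 1 → c ∉ T v := by
    intro v hvP hv hcv
    obtain ⟨h1, h2⟩ := tri (dist_pt P t) hvP
    rcases h.lemmaX (dist_pt P t) h3 hsub hv (h.sub v hcv) with h4 | h4
    · exact h1 h4.symm
    · exact h2 (by rw [add_comm]; exact h4)
  refine ⟨key _ (dist_pt _ _) (dist_pt_one _ _), key _ (dist_pt _ _) ?_⟩
  have := dist_pt_one P (t - 1)
  rw [sub_add_cancel] at this
  rwa [dist_comm]

/-- a swapped pair at distance one, both with at most three colours, needs the third foreign colour -/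
theorem no_pair (h : Irr U T) {P : ℂ} {c d e : Fin 6}
    (hall : ∀ j, j ∈ T P ∨ j = c ∨ j = d ∨ j = e) (hcd : c ≠ d) {t : ℝ} (he : e ∉ T (pt P t))
    (hc : c ∈ T (pt P t)) (hd : d ∈ T (pt P t)) (hc' : c ∈ T (pt P (t + 1))) (hd' : d ∈ T (pt P (t + 1)))
    (h3 : (T (pt P t)).ncard ≤ 3) (h3' : (T (pt P (t + 1))).ncard ≤ 3) : False := by
  obtain ⟨x, hx1, hx2, hx3, -⟩ := hand h (dist_pt P t) (dist_pt P (t + 1)) (dist_pt_one P t) h3 h3' hcd
    hc hd hc' hd'
  rcases hall x with h1 | rfl | rfl | rfl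
  · exact hx1 h1
  · exact hx3 hc'
  · exact hx3 hd'
  · exact he hx2

/-- **Flip lemma.** -/
theorem flip (h : Irr U T) {P : ℂ} {c d e : Fin 6} (h3 : (T P).ncard ≤ 3)
    (hall : ∀ j, j ∈ T P ∨ j = c ∨ j = d ∨ j = e) (hcd : c ≠ d) {α β : ℝ} (hαβ : 2 < β - α)
    (he : ∀ t, α < t → t < β → e ∉ T (pt P t))
    (hsw : ∀ t, α < t → t < β → c ∈ T (pt P t) → d ∈ T (pt P t) → (T (pt P t)).ncard ≤ 3) : False := by
  have hall' : ∀ j, j ∈ T P ∨ j = d ∨ j = c ∨ j = e := fun j => by
    rcases hall j with h1 | h1 | h1 | h1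
    · exact Or.inl h1
    · exact Or.inr (Or.inr (Or.inl h1))
    · exact Or.inr (Or.inl h1)
    · exact Or.inr (Or.inr (Or.inr h1))
  -- steps
  have up : ∀ t, α < t → t + 1 < β → c ∈ T (pt P t) → d ∈ T (pt P t) →
      c ∈ T (pt P (t + 1)) ∧ d ∈ T (pt P (t + 1)) := by
    intro t h1 h2 hc hd
    constructor
    · by_contra hcon
      have := (single_off h h3 hall' (he (t + 1) (by linarith) h2) hcon).2
      rw [add_sub_cancel_right] at this
      exact this hd
    · by_contra hcon
      have := (single_off h h3 hall (he (t + 1) (by linarith) h2) hcon).2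
      rw [add_sub_cancel_right] at this
      exact this hc
  have down : ∀ t, α < t - 1 → t < β → c ∈ T (pt P t) → d ∈ T (pt P t) →
      c ∈ T (pt P (t - 1)) ∧ d ∈ T (pt P (t - 1)) := by
    intro t h1 h2 hc hd
    constructor
    · by_contra hcon
      have := (single_off h h3 hall' (he (t - 1) h1 (by linarith)) hcon).1
      rw [sub_add_cancel] at this
      exact this hd
    · by_contra hcon
      have := (single_off h h3 hall (he (t - 1) h1 (by linarith)) hcon).1
      rw [sub_add_cancel] at this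
      exact this hc
  have pair : ∀ t, α < t → t + 1 < β → c ∈ T (pt P t) → d ∈ T (pt P t) → False := by
    intro t h1 h2 hc hd
    obtain ⟨hc', hd'⟩ := up t h1 h2 hc hd
    exact no_pair h hall hcd (he t h1 (by linarith)) hc hd hc' hd' (hsw t h1 (by linarith) hc hd)
      (hsw (t + 1) (by linarith) h2 hc' hd')
  -- a point of both
  set A : Set ℝ := {t | c ∈ T (pt P t)} with hA
  set B : Set ℝ := {t | d ∈ T (pt P t)} with hB
  have hAc : IsClosed A := (h.closed c).preimage (continuous_pt P)
  have hBc : IsClosed B := (h.closed d).preimage (continuous_pt P)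
  have hcov : Ioo α β ⊆ A ∪ B := fun t ht => foreign h h3 hall (he t ht.1 ht.2)
  set m := α + 1 / 2 with hm
  have hm1 : α < m := by rw [hm]; linarith
  have hm2 : m + 1 < β := by rw [hm]; linarith
  have hneA : (Ioo α β ∩ A).Nonempty := by
    by_contra hcon
    rw [not_nonempty_iff_eq_empty] at hcon
    have hno : ∀ t, α < t → t < β → c ∉ T (pt P t) := fun t h1 h2 h4 => by
      have : t ∈ Ioo α β ∩ A := ⟨⟨h1, h2⟩, h4⟩
      rw [hcon] at this; exact this
    have e1 := (single_off h h3 hall' (he m hm1 (by linarith)) (hno m hm1 (by linarith))).1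
    rcases foreign h h3 hall (he (m + 1) (by linarith) hm2) with h5 | h5
    · exact hno (m + 1) (by linarith) hm2 h5
    · exact e1 h5
  have hneB : (Ioo α β ∩ B).Nonempty := by
    by_contra hcon
    rw [not_nonempty_iff_eq_empty] at hcon
    have hno : ∀ t, α < t → t < β → d ∉ T (pt P t) := fun t h1 h2 h4 => by
      have : t ∈ Ioo α β ∩ B := ⟨⟨h1, h2⟩, h4⟩
      rw [hcon] at this; exact this
    have e1 := (single_off h h3 hall (he m hm1 (by linarith)) (hno m hm1 (by linarith))).1
    rcases foreign h h3 hall (he (m + 1) (by linarith) hm2) with h5 | h5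
    · exact e1 h5
    · exact hno (m + 1) (by linarith) hm2 h5
  obtain ⟨t, ⟨ht1, ht2⟩, htA, htB⟩ := isPreconnected_closed_iff.1 (isPreconnected_Ioo (a := α) (b := β)) A B
    hAc hBc hcov hneA hneB
  have htA : c ∈ T (pt P t) := htA
  have htB : d ∈ T (pt P t) := htB
  rcases lt_or_ge (t + 1) β with h4 | h4
  · exact pair t ht1 h4 htA htB
  · have h5 : α < t - 1 := by linarith
    obtain ⟨h6, h7⟩ := down t h5 ht2 htA htB
    exact pair (t - 1) h5 (by linarith) h6 h7

end Vale.Agent.P032.H510
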