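import Vale.Agent.P032.H510.NoE
import Vale.Agent.P032.H657.LemB
import Vale.Agent.P032.H183.Tie

/-!
# P032: Lemma B (wild frame `Irr U T` only)

`z` a two-pair centre, hub `P = pt z p` (`T P = {i, o, x}`, exact arc of the pair `{i, o}` on the side `s`, run of
`x` on the other side), before the run an exact arc of the other pair `{c, d}` whose far end is at the relative angle
`-κ'` and has the colours `{c, d, y}`, after the arc of the hub a run of `y` up to a point `{c, d, y}` at the relative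
angle `κ`.  Then `κ + κ' ≤ 3` (half a turn).  `lemB_lt` : even `κ + κ' < 3`.
-/

open Set Filter Topology Metric

noncomputable section

namespace Vale.Agent.P032.H510

open Vale.Agent.P032.Six Vale.Agent.P032.Words Vale.Agent.P032.S5.H767 Vale.Agent.P032.H892
open Vale.Agent.P032.H183

variable {U : Fin 6 → Set ℂ} {T : ℂ → Set (Fin 6)}

/-! ### the solid curves, any orientation -/

theorem neg_one_or {s : ℝ} (hs : s = 1 ∨ s = -1) : -s = 1 ∨ -s = -1 := by
  rcases hs with h | h <;> rw [h] <;> norm_num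

theorem sq_one {s : ℝ} (hs : s = 1 ∨ s = -1) : s * s = 1 := by
  rcases hs with h | h <;> rw [h] <;> norm_num

/-- a closed arc from an open one -/
theorem closed_arc_s (h : Irr U T) {P : ℂ} {p s : ℝ} {i : Fin 6} {α β : ℝ} (hαβ : α < β)
    (ho : ∀ r, α < r → r < β → i ∈ T (pt P (p + s * r))) : ∀ r, α ≤ r → r ≤ β → i ∈ T (pt P (p + s * r)) := by
  intro r h1 h2
  have hcl : IsClosed {t : ℝ | i ∈ T (pt P (p + s * t))} :=
    (h.closed i).preimage ((continuous_pt P).comp (by fun_prop))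
  have hsub : Ioo α β ⊆ {t : ℝ | i ∈ T (pt P (p + s * t))} := fun t ht => ho t ht.1 ht.2
  have h3 := closure_minimal hsub hcl
  rw [closure_Ioo hαβ.ne] at h3
  exact h3 ⟨h1, h2⟩

/-- a colour of an arc of `S(z)` is absent at `pt (pt z (p + s r)) q` -/
theorem off_mid_s (h : Irr U T) {z : ℂ} {p s : ℝ} (hs : s = 1 ∨ s = -1) {i : Fin 6} {α β r q : ℝ}
    (ho : ∀ r, α < r → r < β → i ∈ T (pt z (p + s * r))) (h1 : α < r) (h2 : r < β)
    (hq : Real.sin ((q - (p + s * r)) * (Real.pi / 3)) ≠ 0) : i ∉ T (pt (pt z (p + s * r)) q) := by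
  have h3 := off_mid h (z := z) (p := p + s * α) (s := s) (q := q) (δ := β - α) (r := r - α) (i := i) hs
    (fun t h4 h5 => by
      have := ho (α + t) (by linarith) (by linarith)
      rwa [show p + s * (α + t) = p + s * α + s * t by ring] at this)
    (by linarith) (by linarith) (by rw [show p + s * α + s * (r - α) = p + s * r by ring]; exact hq)
  rw [show p + s * α + s * (r - α) = p + s * r by ring] at h3
  exact h3

theorem sin_ne_s {s : ℝ} (hs : s = 1 ∨ s = -1) {x t : ℝ} (hx : x = s * t) (h1 : -3 < t) (h2 : t < 3) (h3 : t ≠ 0) :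
    Real.sin (x * (Real.pi / 3)) ≠ 0 := by
  rw [hx]
  exact Vale.Agent.P032.H657.sin_sg_ne hs (Vale.Agent.P032.H657.sin_ne h3 h1 h2)

/-- an exact arc of `c, d`, shifted by a three-coloured point `{a, b, f}`: colour `e` -/
theorem shift_arc_s (h : Irr U T) {a b c d e f : Fin 6} (nd : [a, b, c, d, e, f].Nodup) {z : ℂ} {p s ρ α β : ℝ}
    (hs : s = 1 ∨ s = -1)
    (hP : T (pt z (p + s * ρ)) = {a, b, f}) (hαβ : α < β) (hD : ∀ r, α < r → r < β → T (pt z (p + s * r)) = {c, d})
    (h1 : β ≤ ρ ∨ ρ ≤ α) (h2 : ρ - α < 3) (h3 : β - ρ < 3) :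
    ∀ r, α ≤ r → r ≤ β → e ∈ T (pt (pt z (p + s * ρ)) (p + s * r)) := by
  refine closed_arc_s h hαβ fun r h4 h5 => ?_
  have h6 : (T (pt z (p + s * ρ))).ncard ≤ 3 := by
    rw [hP]; exact (Set.ncard_insert_le _ _).trans (by
      have := Set.ncard_insert_le b ({f} : Set (Fin 6))
      rw [Set.ncard_singleton] at this; omega)
  have hq : Real.sin ((p + s * ρ - (p + s * r)) * (Real.pi / 3)) ≠ 0 :=
    sin_ne_s hs (t := ρ - r) (by ring) (by rcases h1 with h1 | h1 <;> linarith) (by rcases h1 with h1 | h1 <;> linarith)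
      (by rcases h1 with h1 | h1 <;> intro h0 <;> linarith)
  have hc := off_mid_s h hs (i := c) (fun s a b => by rw [hD s a b]; simp) h4 h5 hq
  have hd := off_mid_s h hs (i := d) (fun s a b => by rw [hD s a b]; simp) h4 h5 hq
  rw [pt_comm] at hc hd
  obtain ⟨t, ht1, ht2⟩ := h.not_sub' (x := pt z (p + s * ρ)) (y := pt (pt z (p + s * ρ)) (p + s * r)) (dist_pt _ _) h6
  rw [hP] at ht2
  rcases all6 nd t with rfl | rfl | rfl | rfl | rfl | rfl
  · exact absurd (by simp) ht2
  · exact absurd (by simp) ht2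
  · exact absurd ht1 hc
  · exact absurd ht1 hd
  · exact ht1
  · exact absurd (by simp) ht2

theorem near_s (z : ℂ) {s : ℝ} (hs : s = 1 ∨ s = -1) (p : ℝ) {u v : ℝ} (h1 : u - v < 1) (h2 : v - u < 1) :
    dist (pt z (p + s * u)) (pt z (p + s * v)) < 1 := by
  rcases hs with rfl | rfl
  · exact near_pt z (by linarith) (by linarith)
  · exact near_pt z (by linarith) (by linarith)

theorem far_s (z : ℂ) {s : ℝ} (hs : s = 1 ∨ s = -1) (p : ℝ) {u v : ℝ} (h1 : 1 < v - u) (h2 : v - u < 5) :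
    1 < dist (pt z (p + s * u)) (pt z (p + s * v)) := by
  rcases hs with rfl | rfl
  · exact far_pt' z (by linarith) (by linarith)
  · exact far_pt z (by linarith) (by linarith)

theorem mid_s (z : ℂ) {s : ℝ} (hs : s = 1 ∨ s = -1) (p t : ℝ) :
    pt (pt z (p + s * (t - 1))) (p + s * (t + 1)) = pt z (p + s * t) := by
  rcases hs with rfl | rfl
  · rw [show p + 1 * (t - 1) = p + t - 1 by ring, show p + 1 * (t + 1) = p + t + 1 by ring,
      show p + 1 * t = p + t by ring]
    exact pt_mid z (p + t)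
  · rw [pt_comm, show p + -1 * (t - 1) = p - t + 1 by ring, show p + -1 * (t + 1) = p - t - 1 by ring,
      show p + -1 * t = p - t by ring]
    exact pt_mid z (p - t)

/-- **The window has no `y`.**  Relative angles: `(-k6, -k7)` exact `cd`, `0` the hub, `(0, k1)` exact `io`,
`(k1, k2)` has `y`. -/
theorem no_y (h : Irr U T) {i o c d x y : Fin 6} (nd : [i, o, c, d, x, y].Nodup) {z : ℂ} {p s : ℝ}
    (hs : s = 1 ∨ s = -1) {k6 k7 k1 k2 : ℝ} (h76 : k7 < k6) (h7 : 0 < k7) (h1 : 0 < k1)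
    (l7 : k7 < 1) (l6 : k6 < 3) (l17 : k1 + k7 < 3) (l16 : k1 + k6 < 5) (l2 : k2 < 3)
    (hD : ∀ r, -k6 < r → r < -k7 → T (pt z (p + s * r)) = {c, d})
    (hA : ∀ r, 0 < r → r < k1 → T (pt z (p + s * r)) = {i, o})
    (hE : ∀ r, k1 < r → r < k2 → y ∈ T (pt z (p + s * r)))
    (hP : T (pt z p) = {i, o, x}) (hP7 : T (pt z (p + s * -k7)) = {c, d, x}) {t : ℝ} (ht1 : 1 - k6 < t)
    (ht2 : t < k2) : y ∉ T (pt (pt z p) (p + s * t)) := by
  have nd1 : [i, o, c, d, y, x].Nodup := by
    simp only [List.nodup_cons, List.mem_cons, List.not_mem_nil, or_false, not_or, List.nodup_nil,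
      and_true, not_false_eq_true] at nd ⊢
    tauto
  have nd2 : [c, d, i, o, y, x].Nodup := by
    simp only [List.nodup_cons, List.mem_cons, List.not_mem_nil, or_false, not_or, List.nodup_nil,
      and_true, not_false_eq_true] at nd ⊢
    tauto
  have hp0 : p + s * 0 = p := by ring
  have e1 : ∀ r, -k6 ≤ r → r ≤ -k7 → y ∈ T (pt (pt z p) (p + s * r)) := by
    have := shift_arc_s h nd1 (z := z) (p := p) (ρ := 0) hs (by rw [hp0]; exact hP) (by linarith) hD
      (Or.inl (by linarith)) (by linarith) (by linarith)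
    rwa [hp0] at this
  have e2 : ∀ r, 0 ≤ r → r ≤ k1 → y ∈ T (pt (pt z (p + s * -k7)) (p + s * r)) :=
    shift_arc_s h nd2 (z := z) (p := p) (ρ := -k7) hs hP7 h1 hA (Or.inr (by linarith)) (by linarith) (by linarith)
  intro hyt
  rcases lt_or_ge t (1 - k7) with h8 | h8
  · -- the first part
    have h9 := off_mid_s h hs (z := pt z p) (p := p) (i := y) (α := -k6) (β := -k7) (r := t - 1) (q := p + s * (t + 1))
      (fun r a b => e1 r a.le b.le) (by linarith) (by linarith)
      (sin_ne_s hs (t := 2) (by ring) (by norm_num) (by norm_num) (by norm_num))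
    rw [mid_s _ hs] at h9
    exact h9 hyt
  rcases le_or_gt t k1 with h9 | h9
  · -- the second part
    have h0t : 0 ≤ t := by linarith
    refine crossing h (Γ := (fun r => pt (pt z p) (p + s * r)) '' Icc (-k6) (-k7) ∪
      (fun r => pt (pt z (p + s * -k7)) (p + s * r)) '' Icc 0 t)
      (i := y) ?_ ?_ hyt (p := pt (pt z (p + s * -k7)) (p + s * t)) (q := pt (pt z p) (p + s * -k6)) ?_ ?_ ?_ ?_
    · refine IsPreconnected.union (pt (pt z p) (p + s * -k7)) ⟨-k7, ⟨by linarith, le_rfl⟩, rfl⟩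
        ⟨0, ⟨le_rfl, h0t⟩, by simp only [hp0]; exact pt_comm _ _ _⟩ ?_ ?_
      · exact isPreconnected_Icc.image _ ((continuous_pt _).comp (by fun_prop)).continuousOn
      · exact isPreconnected_Icc.image _ ((continuous_pt _).comp (by fun_prop)).continuousOn
    · rintro _ (⟨r, hr, rfl⟩ | ⟨r, hr, rfl⟩)
      · exact e1 r hr.1 hr.2
      · exact e2 r hr.1 (hr.2.trans h9)
    · exact Or.inr ⟨t, ⟨h0t, le_rfl⟩, rfl⟩
    · exact Or.inl ⟨-k6, ⟨le_rfl, by linarith⟩, rfl⟩
    · rw [dist_pt_base]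
      have := near_s z hs p (u := -k7) (v := 0) (by linarith) (by linarith)
      rwa [hp0] at this
    · exact far_s _ hs p (by linarith) (by linarith)
  · -- the third part
    have h10 := off_mid_s h hs (z := z) (i := y) (α := k1) (β := k2) (r := t) (q := p) hE h9 ht2
      (sin_ne_s hs (t := -t) (by ring) (by linarith) (by linarith) (by intro h0; linarith))
    rw [pt_comm] at h10
    exact h10 hyt

/-! ### corners -/

/-- a complementary three-coloured point gives a colour `i` or `o` at the corner -/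
theorem io_mem (h : Irr U T) {z : ℂ} {p q : ℝ} {i o c d x y : Fin 6} (hz : DPt T z i o c d)
    (nd : [i, o, c, d, x, y].Nodup) (hP : T (pt z p) = {i, o, x}) (hQ : T (pt z q) = {c, d, y}) :
    i ∈ T (pt (pt z p) q) ∨ o ∈ T (pt (pt z p) q) := by
  have nd' := nd
  simp only [List.nodup_cons, List.mem_cons, List.not_mem_nil, or_false, not_or, List.nodup_nil,
    and_true, not_false_eq_true] at nd'
  obtain ⟨⟨-, -, -, ix, iy⟩, ⟨-, -, ox, oy⟩, ⟨-, cx, cy⟩, ⟨dx, dy⟩, xy⟩ := nd'
  have C : Cfg T z (pt z p) (pt z q) i o c d x y := ⟨hz, dist_pt _ _, dist_pt _ _, hP, hQ, by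
    rw [hz.pal]; simp only [mem_insert_iff, mem_singleton_iff, not_or]
    exact ⟨Ne.symm ix, Ne.symm ox, Ne.symm cx, Ne.symm dx⟩, by
    rw [hz.pal]; simp only [mem_insert_iff, mem_singleton_iff, not_or]
    exact ⟨Ne.symm iy, Ne.symm oy, Ne.symm cy, Ne.symm dy⟩, xy⟩
  rw [pt_pg]
  obtain ⟨t, h1, h2, h3⟩ := C.two_V h x
  rw [hP] at h2
  rcases h2 with rfl | rfl | h2
  · exact Or.inl h1
  · exact Or.inr h1
  · exact absurd h2 h3

/-- the corner on the side of the arc -/
theorem cor_fwd {z : ℂ} {p s : ℝ} {i o c d x y : Fin 6} (H : HubW U T z p s i o x) (hz : DPt T z i o c d)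
    (nd : [i, o, c, d, x, y].Nodup) {k : ℝ} (h0 : 0 < k) (h3 : k < 3) (hQ : T (pt z (p + s * k)) = {c, d, y}) :
    CorW U T z p s i o x (k + 3 / 2) (p + s * k) :=
  ⟨⟨by linarith, by linarith, Or.inl (by ring)⟩,
    H.sol_of nd hQ (sin_ne_s H.sg (t := k) (by ring) (by linarith) h3 h0.ne'), io_mem H.irr hz nd H.pal hQ⟩

/-- the corner on the side of the run -/
theorem cor_bwd {z : ℂ} {p s : ℝ} {i o c d x y : Fin 6} (H : HubW U T z p s i o x) (hz : DPt T z i o c d)
    (nd : [i, o, c, d, x, y].Nodup) {k : ℝ} (h0 : 0 < k) (h3 : k < 3) (hQ : T (pt z (p - s * k)) = {c, d, y}) :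
    CorW U T z p s i o x (9 / 2 - k) (p - s * k) :=
  ⟨⟨by linarith, by linarith, Or.inr (by ring)⟩,
    H.sol_of nd hQ (sin_ne_s H.sg (t := -k) (by ring) (by linarith) (by linarith) (by intro h1; linarith)),
    io_mem H.irr hz nd H.pal hQ⟩

/-- **Lemma B.** -/
theorem lemB {z : ℂ} {p s : ℝ} {i o c d x y : Fin 6} (H : HubW U T z p s i o x) (hz : DPt T z i o c d)
    (nd : [i, o, c, d, x, y].Nodup) {k6 k7 k1 k2 : ℝ} (h76 : k7 < k6) (h7 : 0 < k7) (h1 : 0 < k1) (h12 : k1 < k2)
    (l7 : k7 < 1) (l67 : k6 - k7 ≤ 1) (l17 : k1 + k7 < 3) (l16 : k1 + k6 < 5) (l2 : k2 < 3)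
    (hD : ∀ r, -k6 < r → r < -k7 → T (pt z (p + s * r)) = {c, d})
    (hF : ∀ r, -k7 < r → r < 0 → x ∈ T (pt z (p + s * r)))
    (hA : ∀ r, 0 < r → r < k1 → T (pt z (p + s * r)) = {i, o})
    (hE : ∀ r, k1 < r → r < k2 → y ∈ T (pt z (p + s * r)))
    (hP6 : T (pt z (p + s * -k6)) = {c, d, y}) (hP7 : T (pt z (p + s * -k7)) = {c, d, x})
    (hP2 : T (pt z (p + s * k2)) = {c, d, y}) : k2 + k6 ≤ 3 := by
  by_contra hcon
  push Not at hcon
  have l6 : k6 < 3 := by linarith
  have hs := H.sg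
  have hss := sq_one hs
  have K := cor_fwd H hz nd (k := k2) (by linarith) l2 hP2
  have K' := cor_bwd H hz nd (k := k6) (by linarith) l6 (by rw [show p - s * k6 = p + s * -k6 by ring]; exact hP6)
  have hFe : ∀ᶠ r in 𝓝[>] (0 : ℝ), x ∈ T (pt z (p - s * r)) := by
    filter_upwards [self_mem_nhdsWithin, mem_nhdsWithin_of_mem_nhds (Iio_mem_nhds h7)] with r a b
    have a' : 0 < r := a
    have b' : r < k7 := b
    rw [show p - s * r = p + s * -r by ring]
    exact hF (-r) (by linarith) (by linarith)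
  have h3 : (T (pt z p)).ncard ≤ 3 := by
    rw [H.pal]; exact (Set.ncard_insert_le _ _).trans (by
      have := Set.ncard_insert_le o ({x} : Set (Fin 6))
      rw [Set.ncard_singleton] at this; omega)
  have hall : ∀ j, j ∈ T (pt z p) ∨ j = c ∨ j = d ∨ j = y := by
    intro j
    rw [H.pal]
    rcases all6 nd j with rfl | rfl | rfl | rfl | rfl | rfl
    · simp
    · simp
    · exact Or.inr (Or.inl rfl)
    · exact Or.inr (Or.inr (Or.inl rfl))
    · simp
    · exact Or.inr (Or.inr (Or.inr rfl))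
  have hcd : c ≠ d := by
    simp only [List.nodup_cons, List.mem_cons, List.not_mem_nil, or_false, not_or, List.nodup_nil,
      and_true, not_false_eq_true] at nd
    tauto
  have he : ∀ r, 1 - k6 < r → r < k2 → y ∉ T (pt (pt z p) (p + s * r)) := fun r a b =>
    no_y H.irr nd hs h76 h7 h1 l7 l6 l17 l16 l2 hD hA hE H.pal hP7 a b
  have hx : ∀ r, 1 - k6 < r → r < 0 → x ∉ T (pt (pt z p) (p + s * r)) := by
    intro r a b
    have := off_mid_s H.irr hs (z := z) (i := x) (α := -k7) (β := 0) (r := r) (q := p) hF (by linarith) b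
      (sin_ne_s hs (t := -r) (by ring) (by linarith) (by linarith) (by intro h0; linarith))
    rwa [pt_comm] at this
  have hn : ∀ r, 1 - k6 < r → r < k2 → (T (pt (pt z p) (p + s * r))).ncard ≤ 3 := fun r a b =>
    Vale.Agent.P032.H657.no_swap H K K' (by linarith) hFe nd (by linarith) b (fun h0 => hx r a h0) (he r a b)
  -- the interval
  rcases hs with rfl | rfl
  · refine flip H.irr h3 hall hcd (α := p + (1 - k6)) (β := p + k2) (by linarith) (fun t a b => ?_)
      (fun t a b _ _ => ?_)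
    · have := he (t - p) (by linarith) (by linarith)
      rwa [show p + 1 * (t - p) = t by ring] at this
    · have := hn (t - p) (by linarith) (by linarith)
      rwa [show p + 1 * (t - p) = t by ring] at this
  · refine flip H.irr h3 hall hcd (α := p - k2) (β := p - (1 - k6)) (by linarith) (fun t a b => ?_)
      (fun t a b _ _ => ?_)
    · have := he (p - t) (by linarith) (by linarith)
      rwa [show p + -1 * (p - t) = t by ring] at this
    · have := hn (p - t) (by linarith) (by linarith)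
      rwa [show p + -1 * (p - t) = t by ring] at this

/-- **Lemma B with the tie rule**: the window is shorter than half a turn. -/
theorem lemB_lt {z : ℂ} {p s : ℝ} {i o c d x y : Fin 6} (H : HubW U T z p s i o x) (hz : DPt T z i o c d)
    (nd : [i, o, c, d, x, y].Nodup) {k6 k7 k1 k2 : ℝ} (h76 : k7 < k6) (h7 : 0 < k7) (h1 : 0 < k1) (h12 : k1 < k2)
    (l7 : k7 < 1) (l67 : k6 - k7 ≤ 1) (l17 : k1 + k7 < 3) (l16 : k1 + k6 < 5) (l2 : k2 < 3)
    (hD : ∀ r, -k6 < r → r < -k7 → T (pt z (p + s * r)) = {c, d})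
    (hF : ∀ r, -k7 < r → r < 0 → x ∈ T (pt z (p + s * r)))
    (hA : ∀ r, 0 < r → r < k1 → T (pt z (p + s * r)) = {i, o})
    (hE : ∀ r, k1 < r → r < k2 → y ∈ T (pt z (p + s * r)))
    (hP6 : T (pt z (p + s * -k6)) = {c, d, y}) (hP7 : T (pt z (p + s * -k7)) = {c, d, x})
    (hP2 : T (pt z (p + s * k2)) = {c, d, y}) : k2 + k6 < 3 := by
  refine lt_of_le_of_ne (lemB H hz nd h76 h7 h1 h12 l7 l67 l17 l16 l2 hD hF hA hE hP6 hP7 hP2) fun heq => ?_
  have l6 : k6 < 3 := by linarith
  have hs := H.sg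
  have K := cor_fwd H hz nd (k := k2) (by linarith) l2 hP2
  have K' := cor_bwd H hz nd (k := k6) (by linarith) l6 (by rw [show p - s * k6 = p + s * -k6 by ring]; exact hP6)
  have hFe : ∀ᶠ r in 𝓝[>] (0 : ℝ), x ∈ T (pt z (p - s * r)) := by
    filter_upwards [self_mem_nhdsWithin, mem_nhdsWithin_of_mem_nhds (Iio_mem_nhds h7)] with r a b
    have a' : 0 < r := a
    have b' : r < k7 := b
    rw [show p - s * r = p + s * -r by ring]
    exact hF (-r) (by linarith) (by linarith)
  refine H.tie hFe K K' fun X => ?_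
  have e : k6 = 3 - k2 := by linarith
  rcases hs with rfl | rfl
  · rw [show p - 1 * k6 = p + 1 * k2 - 3 by rw [e]; ring, ← pt_six X (p + 1 * k2 - 3),
      show p + 1 * k2 - 3 + 6 = p + 1 * k2 + 3 by ring]
  · rw [show p - -1 * k6 = p + -1 * k2 + 3 by rw [e]; ring]

end Vale.Agent.P032.H510
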