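import Vale.Agent.P032.H510.Flip

/-!
# P032: the window of a hub has no third foreign colour (wild frame `Irr U T`)

`z` a two-pair centre with the consecutive arcs `D = (p6, p7)` exact `cd`, then `f`, `A = (p0, p1)` exact `ab`,
then `e` on `(p1, p2)`; `T (pt z p0) = {a, b, f}`, `T (pt z p7) = {c, d, f}`.  The points `pt z p0 + u(t)`,
`p6 + 1 < t < p2`, have not the colour `e`.
-/

open Set Filter Topology Metric

noncomputable section

namespace Vale.Agent.P032.H510

open Vale.Agent.P032.Six Vale.Agent.P032.Words Vale.Agent.P032.S5.H767 Vale.Agent.P032.H892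
open Vale.Agent.P032.H183

variable {U : Fin 6 → Set ℂ} {T : ℂ → Set (Fin 6)}

/-! ### distances on the unit circle -/

theorem sq_dist_pt (z : ℂ) (u v : ℝ) :
    dist (pt z u) (pt z v) ^ 2 = 2 - 2 * Real.cos ((u - v) * (Real.pi / 3)) := by
  have h1 := sq_dist_po z 1 u v
  have h2 : po z (1, u) = pt z u := by unfold po pt; simp
  rw [h2] at h1
  rw [h1]; ring

theorem near_pt (z : ℂ) {u v : ℝ} (h1 : u - v < 1) (h2 : v - u < 1) : dist (pt z u) (pt z v) < 1 := by
  have h3 := sq_dist_pt z u v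
  have h4 : 1 / 2 < Real.cos ((u - v) * (Real.pi / 3)) := by
    rw [← Real.cos_abs, ← Real.cos_pi_div_three]
    have h5 : |(u - v) * (Real.pi / 3)| < Real.pi / 3 := by
      rw [abs_lt]; constructor <;> nlinarith [Real.pi_pos]
    exact Real.cos_lt_cos_of_nonneg_of_le_pi (abs_nonneg _) (by linarith [Real.pi_pos]) h5
  have h5 := dist_nonneg (x := pt z u) (y := pt z v)
  nlinarith

theorem far_pt (z : ℂ) {u v : ℝ} (h1 : 1 < u - v) (h2 : u - v < 5) : 1 < dist (pt z u) (pt z v) := by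
  have h3 := sq_dist_pt z u v
  have h4 : Real.cos ((u - v) * (Real.pi / 3)) < 1 / 2 := by
    rw [← Real.cos_pi_div_three]
    have hp := Real.pi_pos
    rcases le_or_gt ((u - v) * (Real.pi / 3)) Real.pi with h5 | h5
    · exact Real.cos_lt_cos_of_nonneg_of_le_pi (by positivity) h5 (by nlinarith)
    · rw [← Real.cos_two_pi_sub]
      exact Real.cos_lt_cos_of_nonneg_of_le_pi (by positivity) (by linarith) (by nlinarith)
  have h5 := dist_nonneg (x := pt z u) (y := pt z v)
  nlinarith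

theorem far_pt' (z : ℂ) {u v : ℝ} (h1 : 1 < v - u) (h2 : v - u < 5) : 1 < dist (pt z u) (pt z v) := by
  rw [dist_comm]; exact far_pt z h1 h2

theorem dist_pt_base (z w : ℂ) (t : ℝ) : dist (pt z t) (pt w t) = dist z w := by
  unfold pt; rw [dist_eq_norm, dist_eq_norm]; congr 1; ring

theorem pt_mid (z : ℂ) (t : ℝ) : pt (pt z (t - 1)) (t + 1) = pt z t := by
  have h1 := pt_sum z (t - 1)
  rw [show t - 1 + 2 = t + 1 by ring, show t - 1 + 1 = t by ring] at h1
  rw [pt_pg]
  linear_combination h1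

theorem sin_ne {x : ℝ} (h1 : -3 < x) (h2 : x < 3) (h3 : x ≠ 0) : Real.sin (x * (Real.pi / 3)) ≠ 0 := by
  have hp := Real.pi_pos
  rcases lt_or_gt_of_ne h3 with h4 | h4
  · exact (Real.sin_neg_of_neg_of_neg_pi_lt (by nlinarith) (by nlinarith)).ne
  · exact (Real.sin_pos_of_pos_of_lt_pi (by positivity) (by nlinarith)).ne'

/-! ### solid curves of a colour -/

/-- a closed arc from an open one -/
theorem closed_arc (h : Irr U T) {P : ℂ} {i : Fin 6} {α β : ℝ} (hαβ : α < β)
    (ho : ∀ s, α < s → s < β → i ∈ T (pt P s)) : ∀ s, α ≤ s → s ≤ β → i ∈ T (pt P s) := by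
  intro s h1 h2
  have hcl : IsClosed {t | i ∈ T (pt P t)} := (h.closed i).preimage (continuous_pt P)
  have hsub : Ioo α β ⊆ {t | i ∈ T (pt P t)} := fun t ht => ho t ht.1 ht.2
  have h3 := closure_minimal hsub hcl
  rw [closure_Ioo hαβ.ne] at h3
  exact h3 ⟨h1, h2⟩

/-- a colour of an arc of `S(z)` is absent at `pt (pt z s) q` -/
theorem off_mid' (h : Irr U T) {z : ℂ} {i : Fin 6} {α β s q : ℝ}
    (ho : ∀ s, α < s → s < β → i ∈ T (pt z s)) (h1 : α < s) (h2 : s < β)
    (hq : Real.sin ((q - s) * (Real.pi / 3)) ≠ 0) : i ∉ T (pt (pt z s) q) := by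
  have h3 := off_mid h (z := z) (p := α) (s := 1) (q := q) (δ := β - α) (r := s - α) (i := i) (Or.inl rfl)
    (fun t h4 h5 => ho _ (by linarith) (by linarith)) (by linarith) (by linarith)
    (by rw [show q - (α + 1 * (s - α)) = q - s by ring]; exact hq)
  rw [show α + 1 * (s - α) = s by ring] at h3
  exact h3

/-- an exact arc `(α, β)` of colours `c, d`, shifted by a three-coloured point `{a, b, f}`: colour `e` -/
theorem shift_arc (h : Irr U T) {a b c d e f : Fin 6} (nd : [a, b, c, d, e, f].Nodup) {z : ℂ} {p α β : ℝ}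
    (hP : T (pt z p) = {a, b, f}) (hαβ : α < β) (hD : ∀ s, α < s → s < β → T (pt z s) = {c, d})
    (hq : ∀ s, α < s → s < β → Real.sin ((p - s) * (Real.pi / 3)) ≠ 0) :
    ∀ s, α ≤ s → s ≤ β → e ∈ T (pt (pt z p) s) := by
  refine closed_arc h hαβ fun s h1 h2 => ?_
  have h3 : (T (pt z p)).ncard ≤ 3 := by
    rw [hP]; exact (Set.ncard_insert_le _ _).trans (by
      have := Set.ncard_insert_le b ({f} : Set (Fin 6))
      rw [Set.ncard_singleton] at this; omega)
  have hc := off_mid' h (i := c) (fun s a b => by rw [hD s a b]; simp) h1 h2 (hq s h1 h2)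
  have hd := off_mid' h (i := d) (fun s a b => by rw [hD s a b]; simp) h1 h2 (hq s h1 h2)
  rw [pt_comm] at hc hd
  obtain ⟨t, ht1, ht2⟩ := h.not_sub' (x := pt z p) (y := pt (pt z p) s) (dist_pt _ _) h3
  rw [hP] at ht2
  rcases all6 nd t with rfl | rfl | rfl | rfl | rfl | rfl
  · exact absurd (by simp) ht2
  · exact absurd (by simp) ht2
  · exact absurd ht1 hc
  · exact absurd ht1 hd
  · exact ht1
  · exact absurd (by simp) ht2

/-- **The window has no `e`.** -/
theorem no_e (h : Irr U T) {a b c d e f : Fin 6} (nd : [a, b, c, d, e, f].Nodup) {z : ℂ}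
    {p6 p7 p0 p1 p2 : ℝ} (h67 : p6 < p7) (h70 : p7 < p0) (h01 : p0 < p1) (h12 : p1 < p2)
    (l70 : p0 - p7 < 1) (l02 : p2 - p0 < 3) (l61 : p1 - p6 < 5) (l60 : p0 - p6 < 3) (l71 : p1 - p7 < 3)
    (hD : ∀ s, p6 < s → s < p7 → T (pt z s) = {c, d})
    (hA : ∀ s, p0 < s → s < p1 → T (pt z s) = {a, b})
    (hE : ∀ s, p1 < s → s < p2 → e ∈ T (pt z s))
    (hP : T (pt z p0) = {a, b, f}) (hP7 : T (pt z p7) = {c, d, f}) {t : ℝ} (ht1 : p6 + 1 < t)
    (ht2 : t < p2) : e ∉ T (pt (pt z p0) t) := by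
  -- the solid curves
  have e1 : ∀ s, p6 ≤ s → s ≤ p7 → e ∈ T (pt (pt z p0) s) :=
    shift_arc h nd hP h67 hD fun s h1 h2 => sin_ne (by linarith) (by linarith) (by intro h3; linarith)
  have nd' : [c, d, a, b, e, f].Nodup := by
    simp only [List.nodup_cons, List.mem_cons, List.not_mem_nil, or_false, not_or, List.nodup_nil,
      and_true, not_false_eq_true] at nd ⊢
    tauto
  have e2 : ∀ s, p0 ≤ s → s ≤ p1 → e ∈ T (pt (pt z p7) s) :=
    shift_arc h nd' hP7 h01 hA fun s h1 h2 => sin_ne (by linarith) (by linarith) (by intro h3; linarith)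
  intro het
  rcases lt_or_ge t (p7 + 1) with h1 | h1
  · -- the first part
    have h2 := off_mid' h (z := pt z p0) (i := e) (α := p6) (β := p7) (s := t - 1) (q := t + 1)
      (fun s a b => e1 s a.le b.le) (by linarith) (by linarith)
      (by rw [show t + 1 - (t - 1) = 2 by ring]; exact sin_ne (by norm_num) (by norm_num) (by norm_num))
    rw [pt_mid] at h2
    exact h2 het
  rcases le_or_gt t p1 with h2 | h2
  · -- the second part
    have h0t : p0 ≤ t := by linarith
    refine crossing h (Γ := (fun s => pt (pt z p0) s) '' Icc p6 p7 ∪ (fun s => pt (pt z p7) s) '' Icc p0 t)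
      (i := e) ?_ ?_ het (p := pt (pt z p7) t) (q := pt (pt z p0) p6) ?_ ?_ ?_ ?_
    · refine IsPreconnected.union (pt (pt z p0) p7) ⟨p7, ⟨h67.le, le_rfl⟩, rfl⟩
        ⟨p0, ⟨le_rfl, h0t⟩, pt_comm _ _ _⟩ ?_ ?_
      · exact isPreconnected_Icc.image _ (continuous_pt _).continuousOn
      · exact isPreconnected_Icc.image _ (continuous_pt _).continuousOn
    · rintro _ (⟨s, hs, rfl⟩ | ⟨s, hs, rfl⟩)
      · exact e1 s hs.1 hs.2
      · exact e2 s hs.1 (hs.2.trans h2)
    · exact Or.inr ⟨t, ⟨h0t, le_rfl⟩, rfl⟩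
    · exact Or.inl ⟨p6, ⟨le_rfl, h67.le⟩, rfl⟩
    · rw [dist_pt_base]; exact near_pt z (by linarith) (by linarith)
    · exact far_pt' _ (by linarith) (by linarith)
  · -- the third part
    have h3 := off_mid' h (z := z) (i := e) (α := p1) (β := p2) (s := t) (q := p0) hE h2 ht2
      (sin_ne (by linarith) (by linarith) (by intro h3; linarith))
    rw [pt_comm] at h3
    exact h3 het

end Vale.Agent.P032.H510
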