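import Vale.Agent.P032.S5.H358.NoSpec
import Vale.Agent.P032.S5.H287.HMTop

/-!
# P032: a two-pair point with a four coloured point of a special kind on its circle

At most four colours everywhere and a two-pair point: then there is a two-pair point `z` (colours
`a, b | c, d`, missing `e, f`) with a four coloured point `v` at distance one such that `T v` is
neither `{a, b, e, f}` nor `{c, d, e, f}`, or `T v = {a, b, e, f}` and `v` is in the closure of the
exact `ab` arcs of `z` or `v` has an exact arc with a pair other than `{a, b}` (same with `c, d`), or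
there are `v`, `v'` on the circle at distance one with these two palettes.
-/

open Set Filter Topology Metric

noncomputable section

namespace Vale.Agent.P032.H510

open Vale.Agent.P032.Six Vale.Agent.P032.S5.H767 Vale.Agent.P032.S5.H358 Vale.Agent.P032.S5.H349

variable {U : Fin 6 → Set ℂ} {T : ℂ → Set (Fin 6)}

/-- `v` with `T v = {p, q, e, f}` is an end or a pinch of an exact arc of `z`, or has another pair -/
def BadP (T : ℂ → Set (Fin 6)) (z v : ℂ) (p q e f : Fin 6) : Prop :=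
  T v = {p, q, e, f} ∧ (v ∈ closure (Ex T z {p, q}) ∨ ∃ P ∈ MM T v, P ≠ {p, q})

/-- a four coloured point of the circle of `z` which matters -/
def Bad (T : ℂ → Set (Fin 6)) (z v : ℂ) (a b c d e f : Fin 6) : Prop :=
  dist v z = 1 ∧ (T v).ncard = 4 ∧
    ((T v ≠ {a, b, e, f} ∧ T v ≠ {c, d, e, f}) ∨ BadP T z v a b e f ∨ BadP T z v c d e f)

/-- two harmless four coloured points of the circle of `z` at distance one -/
def Star (T : ℂ → Set (Fin 6)) (z v v' : ℂ) (a b c d e f : Fin 6) : Prop :=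
  dist v z = 1 ∧ dist v' z = 1 ∧ dist v v' = 1 ∧ T v = {a, b, e, f} ∧ T v' = {c, d, e, f}

/-- not exceptional -/
theorem hx_or_bad (h : Irr U T) {z v : ℂ} {p q e f : Fin 6} (h4 : (T v).ncard ≤ 4)
    (hT : T v = {p, q, e, f}) : Hx T z p q e f v ∨ BadP T z v p q e f := by
  by_cases h1 : v ∈ closure (Ex T z {p, q})
  · exact Or.inr ⟨hT, Or.inl h1⟩
  by_cases h2 : ∀ w, dist w v = 1 → T w ⊆ T v → ({p, q} : Set (Fin 6)) ⊆ T w
  · exact Or.inl ⟨hT, h2, h1⟩
  push Not at h2
  obtain ⟨w, hw, hwv, hn⟩ := h2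
  obtain ⟨P, hP, hPw⟩ := h.exists_MM h4 hw hwv
  exact Or.inr ⟨hT, Or.inr ⟨P, hP, fun hcon => hn (hcon ▸ hPw)⟩⟩

/-- **A two-pair point with a four coloured point that matters.** -/
theorem exists_bad (h : Irr U T) (h4 : ∀ z, (T z).ncard ≤ 4)
    (hD : ∃ z a b c d, DPt T z a b c d) :
    ∃ z a b c d e f, DPt T z a b c d ∧ [a, b, c, d, e, f].Nodup ∧
      ((∃ v, Bad T z v a b c d e f) ∨ ∃ v v', Star T z v v' a b c d e f) := by
  by_contra hcon
  push Not at hcon
  obtain ⟨z₀, a₀, b₀, c₀, d₀, hz₀⟩ := hD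
  refine no_D_of_good h h4 (fun z a b c d hz => ?_) z₀ a₀ b₀ c₀ d₀ hz₀
  obtain ⟨e, f, nd⟩ := hz.exists_nodup
  obtain ⟨hb, hs⟩ := hcon z a b c d e f hz nd
  refine good_of_adm h hz nd ⟨fun y hy => ?_, fun y y' hy hy' hyy h1 h2 => ?_⟩
  · by_cases h3 : (T y).ncard ≤ 3
    · exact Or.inl h3
    have hy4 : (T y).ncard = 4 := by have := h4 y; omega
    by_cases e1 : T y = {a, b, e, f}
    · rcases hx_or_bad h (z := z) hy4.le e1 with h5 | h5
      · exact Or.inr (Or.inl h5)
      · exact absurd ⟨hy, hy4, Or.inr (Or.inl h5)⟩ (hb y)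
    by_cases e2 : T y = {c, d, e, f}
    · rcases hx_or_bad h (z := z) hy4.le e2 with h5 | h5
      · exact Or.inr (Or.inr h5)
      · exact absurd ⟨hy, hy4, Or.inr (Or.inr h5)⟩ (hb y)
    exact absurd ⟨hy, hy4, Or.inl ⟨e1, e2⟩⟩ (hb y)
  · exact hs y y' ⟨hy, hy', hyy, h1.1, h2.1⟩

end Vale.Agent.P032.H510
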