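import Vale.Agent.P032.H510.LemB

/-!
# P032: the clean words `AeCfBeDf` and `AeCfBef` of a two-pair centre (wild frame `Irr U T` only)

`window` : Lemma B in terms of the points of `S(z)` only.  `no_word8`, `no_word7` : the two words with single runs.
-/

open Set Filter Topology Metric

noncomputable section

namespace Vale.Agent.P032.H510

open Vale.Agent.P032.Six Vale.Agent.P032.Words Vale.Agent.P032.S5.H767 Vale.Agent.P032.H892
open Vale.Agent.P032.H183

variable {U : Fin 6 → Set ℂ} {T : ℂ → Set (Fin 6)}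

/-- **Window lemma.**  `T (pt z p) = {a, b, x}`, an exact `ab`-arc on the side `s` of relative length `k1`, then the colour
`y` up to a point `{c, d, y}` at `k2`; on the other side the colour `x` up to a point `{c, d, x}` at `-k7`, then an exact
`cd`-arc up to a point `{c, d, y}` at `-k6`.  Then `k2 + k6 < 3`. -/
theorem window (h : Irr U T) {z : ℂ} {p s : ℝ} (hs : s = 1 ∨ s = -1) {a b c d x y : Fin 6} (hz : DPt T z a b c d)
    (nd : [a, b, c, d, x, y].Nodup) (hP : T (pt z p) = {a, b, x}) {k6 k7 k1 k2 : ℝ} (h76 : k7 < k6) (h7 : 0 < k7)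
    (h1 : 0 < k1) (h12 : k1 < k2)
    (l7 : k7 < 1) (l67 : k6 - k7 ≤ 1) (l17 : k1 + k7 < 3) (l16 : k1 + k6 < 5) (l2 : k2 < 3)
    (hD : ∀ r, -k6 < r → r < -k7 → T (pt z (p + s * r)) = {c, d})
    (hF : ∀ r, -k7 < r → r < 0 → x ∈ T (pt z (p + s * r)))
    (hA : ∀ r, 0 < r → r < k1 → T (pt z (p + s * r)) = {a, b})
    (hE : ∀ r, k1 < r → r < k2 → y ∈ T (pt z (p + s * r)))
    (hP6 : T (pt z (p + s * -k6)) = {c, d, y}) (hP7 : T (pt z (p + s * -k7)) = {c, d, x})
    (hP2 : T (pt z (p + s * k2)) = {c, d, y}) : k2 + k6 < 3 := by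
  have harc : ∀ᶠ r in 𝓝[>] (0 : ℝ), T (pt z (p + s * r)) = {a, b} := by
    filter_upwards [self_mem_nhdsWithin, mem_nhdsWithin_of_mem_nhds (Iio_mem_nhds h1)] with r u v using hA r u v
  rcases exists_hub h hz hs hP harc with H | H
  · exact lemB_lt H hz nd h76 h7 h1 h12 l7 l67 l17 l16 l2 hD hF hA hE hP6 hP7 hP2
  · have nd' : [b, a, c, d, x, y].Nodup := by
      simp only [List.nodup_cons, List.mem_cons, List.not_mem_nil, or_false, not_or, List.nodup_nil,
        and_true, not_false_eq_true] at nd ⊢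
      tauto
    exact lemB_lt H hz.swap12 nd' h76 h7 h1 h12 l7 l67 l17 l16 l2 hD hF
      (fun r u v => by rw [hA r u v, pair_comm]) hE hP6 hP7 hP2

/-- the window lemma, counterclockwise: `q0 < q1 < q2 < q3 < q4`, exact `cd` on `(q0, q1)`, `x` on `(q1, q2)`, exact `ab`
on `(q2, q3)`, `y` on `(q3, q4)` -/
theorem window_ccw (h : Irr U T) {z : ℂ} {a b c d x y : Fin 6} (hz : DPt T z a b c d)
    (nd : [a, b, c, d, x, y].Nodup) {q0 q1 q2 q3 q4 : ℝ} (h01 : q0 < q1) (h12 : q1 < q2) (h23 : q2 < q3) (h34 : q3 < q4)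
    (l01 : q1 - q0 ≤ 1) (l12 : q2 - q1 < 1) (l23 : q3 - q2 ≤ 1) (l34 : q4 - q3 ≤ 1)
    (hD : ∀ t, q0 < t → t < q1 → T (pt z t) = {c, d}) (hF : ∀ t, q1 < t → t < q2 → x ∈ T (pt z t))
    (hA : ∀ t, q2 < t → t < q3 → T (pt z t) = {a, b}) (hE : ∀ t, q3 < t → t < q4 → y ∈ T (pt z t))
    (h0 : T (pt z q0) = {c, d, y}) (h1 : T (pt z q1) = {c, d, x}) (h2 : T (pt z q2) = {a, b, x})
    (h4 : T (pt z q4) = {c, d, y}) : q4 - q0 < 3 := by
  have key := window h (z := z) (p := q2) (s := 1) (Or.inl rfl) hz nd h2 (k6 := q2 - q0) (k7 := q2 - q1) (k1 := q3 - q2)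
    (k2 := q4 - q2) (by linarith) (by linarith) (by linarith) (by linarith) (by linarith) (by linarith) (by linarith)
    (by linarith) (by linarith) (fun r u v => hD _ (by linarith) (by linarith))
    (fun r u v => hF _ (by linarith) (by linarith)) (fun r u v => hA _ (by linarith) (by linarith))
    (fun r u v => hE _ (by linarith) (by linarith)) (by rw [show q2 + 1 * -(q2 - q0) = q0 by ring]; exact h0)
    (by rw [show q2 + 1 * -(q2 - q1) = q1 by ring]; exact h1) (by rw [show q2 + 1 * (q4 - q2) = q4 by ring]; exact h4)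
  linarith

/-- the window lemma, clockwise: `q0 < q1 < q2 < q3 < q4`, `y` on `(q0, q1)`, exact `ab` on `(q1, q2)`, `x` on `(q2, q3)`,
exact `cd` on `(q3, q4)` -/
theorem window_cw (h : Irr U T) {z : ℂ} {a b c d x y : Fin 6} (hz : DPt T z a b c d)
    (nd : [a, b, c, d, x, y].Nodup) {q0 q1 q2 q3 q4 : ℝ} (h01 : q0 < q1) (h12 : q1 < q2) (h23 : q2 < q3) (h34 : q3 < q4)
    (l01 : q1 - q0 ≤ 1) (l12 : q2 - q1 ≤ 1) (l23 : q3 - q2 < 1) (l34 : q4 - q3 ≤ 1)
    (hE : ∀ t, q0 < t → t < q1 → y ∈ T (pt z t)) (hA : ∀ t, q1 < t → t < q2 → T (pt z t) = {a, b})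
    (hF : ∀ t, q2 < t → t < q3 → x ∈ T (pt z t)) (hD : ∀ t, q3 < t → t < q4 → T (pt z t) = {c, d})
    (h0 : T (pt z q0) = {c, d, y}) (h2 : T (pt z q2) = {a, b, x}) (h3 : T (pt z q3) = {c, d, x})
    (h4 : T (pt z q4) = {c, d, y}) : q4 - q0 < 3 := by
  have key := window h (z := z) (p := q2) (s := -1) (Or.inr rfl) hz nd h2 (k6 := q4 - q2) (k7 := q3 - q2)
    (k1 := q2 - q1) (k2 := q2 - q0) (by linarith) (by linarith) (by linarith) (by linarith) (by linarith) (by linarith)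
    (by linarith) (by linarith) (by linarith) (fun r u v => hD _ (by linarith) (by linarith))
    (fun r u v => hF _ (by linarith) (by linarith)) (fun r u v => hA _ (by linarith) (by linarith))
    (fun r u v => hE _ (by linarith) (by linarith)) (by rw [show q2 + -1 * -(q4 - q2) = q4 by ring]; exact h4)
    (by rw [show q2 + -1 * -(q3 - q2) = q3 by ring]; exact h3) (by rw [show q2 + -1 * (q2 - q0) = q0 by ring]; exact h0)
  linarith

/-- **The word `A e C f B e D f`** (clean ends, arcs at most `60` degrees, runs shorter) does not occur. -/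
theorem no_word8 (h : Irr U T) {z : ℂ} {a b c d e f : Fin 6} (hz : DPt T z a b c d)
    (nd : [a, b, c, d, e, f].Nodup) {q0 q1 q2 q3 q4 q5 q6 q7 : ℝ} (h01 : q0 < q1) (h12 : q1 < q2) (h23 : q2 < q3)
    (h34 : q3 < q4) (h45 : q4 < q5) (h56 : q5 < q6) (h67 : q6 < q7) (h70 : q7 < q0 + 6)
    (l01 : q1 - q0 ≤ 1) (l12 : q2 - q1 < 1) (l23 : q3 - q2 ≤ 1) (l34 : q4 - q3 ≤ 1) (l45 : q5 - q4 ≤ 1)
    (l56 : q6 - q5 < 1) (l67 : q7 - q6 ≤ 1) (l70 : q0 + 6 - q7 ≤ 1)
    (hA : ∀ t, q0 < t → t < q1 → T (pt z t) = {a, b}) (he : ∀ t, q1 < t → t < q2 → e ∈ T (pt z t))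
    (hC : ∀ t, q2 < t → t < q3 → T (pt z t) = {c, d}) (hf : ∀ t, q3 < t → t < q4 → f ∈ T (pt z t))
    (hB : ∀ t, q4 < t → t < q5 → T (pt z t) = {a, b}) (he' : ∀ t, q5 < t → t < q6 → e ∈ T (pt z t))
    (hD : ∀ t, q6 < t → t < q7 → T (pt z t) = {c, d}) (hf' : ∀ t, q7 < t → t < q0 + 6 → f ∈ T (pt z t))
    (h0 : T (pt z q0) = {a, b, f}) (h1 : T (pt z q1) = {a, b, e}) (h2 : T (pt z q2) = {c, d, e})
    (h4 : T (pt z q4) = {a, b, f}) (h5 : T (pt z q5) = {a, b, e}) (h6 : T (pt z q6) = {c, d, e}) : False := by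
  have nd' : [c, d, a, b, e, f].Nodup := by
    simp only [List.nodup_cons, List.mem_cons, List.not_mem_nil, or_false, not_or, List.nodup_nil,
      and_true, not_false_eq_true] at nd ⊢
    tauto
  have w1 := window_ccw h hz.swap nd' h01 h12 h23 h34 l01 l12 l23 l34 hA he hC hf h0 h1 h2 h4
  have w2 := window_ccw h hz.swap nd' h45 h56 h67 h70 l45 l56 l67 l70 hB he' hD hf' h4 h5 h6
    (by rw [pt_six]; exact h0)
  linarith

/-- **The word `A e C f B e f`** (clean ends; nothing is used about the run `e f` except its length) does not occur. -/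
theorem no_word7 (h : Irr U T) {z : ℂ} {a b c d e f : Fin 6} (hz : DPt T z a b c d)
    (nd : [a, b, c, d, e, f].Nodup) {q0 q1 q2 q3 q4 q5 : ℝ} (h12 : q1 < q2) (h23 : q2 < q3)
    (h34 : q3 < q4) (h45 : q4 < q5)
    (l01 : q1 - q0 ≤ 1) (l12 : q2 - q1 ≤ 1) (l23 : q3 - q2 ≤ 1) (l34 : q4 - q3 < 1) (l45 : q5 - q4 ≤ 1)
    (l50 : q0 + 6 - q5 ≤ 2)
    (he : ∀ t, q1 < t → t < q2 → e ∈ T (pt z t))
    (hC : ∀ t, q2 < t → t < q3 → T (pt z t) = {c, d}) (hf : ∀ t, q3 < t → t < q4 → f ∈ T (pt z t))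
    (hB : ∀ t, q4 < t → t < q5 → T (pt z t) = {a, b})
    (h1 : T (pt z q1) = {a, b, e}) (h3 : T (pt z q3) = {c, d, f})
    (h4 : T (pt z q4) = {a, b, f}) (h5 : T (pt z q5) = {a, b, e}) : False := by
  have nd' : [c, d, a, b, f, e].Nodup := by
    simp only [List.nodup_cons, List.mem_cons, List.not_mem_nil, or_false, not_or, List.nodup_nil,
      and_true, not_false_eq_true] at nd ⊢
    tauto
  have w1 := window_cw h hz.swap nd' h12 h23 h34 h45 l12 l23 l34 l45 he hC hf hB h1 h3 h4 h5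
  linarith

end Vale.Agent.P032.H510
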